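import Vale.Agent.N295.Orb

namespace Vale.Agent.Results.P295.A0Orbits

theorem result :
    ∀ n : ℕ, 5 ≤ n → ∃ f : ℝ → MvPolynomial (Fin n) ℂ,
      (∀ t, (∃ e : Polynomial (MvPolynomial (Fin n) ℂ) ≃ₐ[ℂ] MvPolynomial (Fin (n + 1)) ℂ,
          e (Polynomial.C (f t)) = MvPolynomial.X 0) ∧
        (∀ (e : MvPolynomial (Fin n) ℂ ≃ₐ[ℂ] MvPolynomial (Fin n) ℂ) (i : Fin n),
          (e (f t)).degreeOf i ≠ 0) ∧
        ∀ (B : Type) [CommRing B] [Algebra ℂ B]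
          (e : MvPolynomial (Fin n) ℂ ≃ₐ[ℂ] Polynomial B) (b : B), e (f t) ≠ Polynomial.C b) ∧
      (6 ≤ n → ∀ s t, s ≠ t →
        (∀ (e : MvPolynomial (Fin n) ℂ ≃ₐ[ℂ] MvPolynomial (Fin n) ℂ) (a b : ℂ),
          e (f s) ≠ MvPolynomial.C a * f t + MvPolynomial.C b) ∧
        ∀ c d : ℂ, IsEmpty ((MvPolynomial (Fin n) ℂ ⧸ Ideal.span {f s - MvPolynomial.C c}) ≃ₐ[ℂ]
          (MvPolynomial (Fin n) ℂ ⧸ Ideal.span {f t - MvPolynomial.C d}))) :=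
  Vale.Agent.N295.main.2

end Vale.Agent.Results.P295.A0Orbits
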